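import Crest.Agent.Helper82.Shuffle.LemmaAQ
import Crest.Agent.Helper75.Shuffle.QLeaf

/-!
# S0222 (Thorp shuffle) — Lemma A of GAP, unconditional

`lemmaA : LemmaAStmt ι` for every nonempty finite `ι` (the statement is false for empty `ι`), and
`lemmaA_fin : ∀ n, 0 < n → LemmaAStmt (Fin n)` (the shape consumed by
`Crest.Agent.Helper13.Gap` `GapFinal2`).

Leaves: L0, L1 (helper47), L2 (helper72), L3, symbol identity and assembly (helper82),
the abstract spectral step (helper97), Lemma B and the leaf Q (helper75).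
-/

set_option autoImplicit false

namespace Crest.Agent.Helper82.Shuffle

open Crest.Agent.Helper13.Gap

/-- **Lemma A.** -/
theorem lemmaA (ι : Type*) [Fintype ι] [DecidableEq ι] [Nonempty ι] : LemmaAStmt ι :=
  lemmaAStmt_of_q ι Crest.Agent.Helper75.Shuffle.qStmt

/-- **Lemma A** for `Fin n`, `0 < n`. -/
theorem lemmaA_fin (n : ℕ) (hn : 0 < n) : LemmaAStmt (Fin n) := by
  have : Nonempty (Fin n) := ⟨⟨0, hn⟩⟩
  exact lemmaA (Fin n)

end Crest.Agent.Helper82.Shuffle
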