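import Crest.Agent.Helper13.Shuffle.GapDefs

/-!
# S0222 (Thorp shuffle) — Lemma A of GAP: definitions and leaf statements of the symbol identity

Model of `Crest.Agent.Helper13.Gap` (`GapDefs.lean`): columns `ι`, positions and cards
`ι × Bool` (row `false` = top), arrangement `c : Equiv.Perm (ι × Bool)`, `c (y, b)` = the card at
position `(y, b)`.

Nothing is proved here.  The `…Stmt` definitions are the exact shapes of the leaves
(`L0`, `L1`, `L2`, `L3`, `SYM`, `Q`); every leaf is proved in its own file as
`theorem … : …Stmt ι`.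

`W`, `Z` are finite sets of CARDS, `y : ι × Bool → ι` assigns a column to every card (only its
values on `W` matter).
-/

set_option autoImplicit false

namespace Crest.Agent.Helper82.Shuffle

open Finset Crest.Agent.Helper13.Gap

variable {ι : Type*} [Fintype ι] [DecidableEq ι]

/-- The sum inner product on functions of the arrangement. -/
def dot (f g : Equiv.Perm (ι × Bool) → ℝ) : ℝ := ∑ c, f c * g c

/-- `u` is a function of the top row only: invariant under the permutations of the bottom row. -/
def BotInv (u : Equiv.Perm (ι × Bool) → ℝ) : Prop :=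
  ∀ (σ : Equiv.Perm ι) (c : Equiv.Perm (ι × Bool)), u (c * rowsE 1 σ) = u c

/-- Indicator of "every card `w ∈ W` sits in the top row, in column `y w`". -/
def eTop (W : Finset (ι × Bool)) (y : ι × Bool → ι) (c : Equiv.Perm (ι × Bool)) : ℝ :=
  if ∀ w ∈ W, c (y w, false) = w then 1 else 0

/-- The marginal of `u` on the cards `W` at the top places `y`. -/
def marg (u : Equiv.Perm (ι × Bool) → ℝ) (W : Finset (ι × Bool)) (y : ι × Bool → ι) : ℝ :=
  dot u (eTop W y)

/-- Indicator of "every card `w ∈ W` sits in column `y w`, in the bottom row if `w ∈ Z` and in the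
top row otherwise". -/
def eMix (W Z : Finset (ι × Bool)) (y : ι × Bool → ι) (c : Equiv.Perm (ι × Bool)) : ℝ :=
  if ∀ w ∈ W, c (y w, decide (w ∈ Z)) = w then 1 else 0

/-- Indicator of "every card `w ∈ W \ Z` sits in the top row in column `y w`, and every card of
`Z` sits somewhere in the bottom row". -/
def eBot (W Z : Finset (ι × Bool)) (y : ι × Bool → ι) (c : Equiv.Perm (ι × Bool)) : ℝ :=
  if (∀ w ∈ W \ Z, c (y w, false) = w) ∧ (∀ w ∈ Z, (c.symm w).2 = true) then 1 else 0

/-- The relabellings of `y` on `Z`: all `y'` which agree with `y` outside `Z`. -/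
def relab (Z : Finset (ι × Bool)) (y : ι × Bool → ι) : Finset (ι × Bool → ι) :=
  univ.filter fun y' => ∀ w, w ∉ Z → y' w = y w

/-- The symbol operator of level `W` (on functions of the total column assignment `y`). -/
noncomputable def theta (W : Finset (ι × Bool)) (β : (ι × Bool → ι) → ℝ)
    (y : ι × Bool → ι) : ℝ :=
  (∑ Z ∈ W.powerset, (-1 : ℝ) ^ Z.card / ((Fintype.card ι).descFactorial Z.card : ℝ) *
      ∑ y' ∈ relab Z y, β y') / 2 ^ W.card

/-- (L0) the column-swap average is a symmetric idempotent. -/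
def L0Stmt (ι : Type*) [Fintype ι] [DecidableEq ι] : Prop :=
  (∀ f g : Equiv.Perm (ι × Bool) → ℝ, dot (opE f) g = dot f (opE g)) ∧
    ∀ f : Equiv.Perm (ι × Bool) → ℝ, opE (opE f) = opE f

/-- (L1) column factorisation of `E` on a top indicator. -/
def L1Stmt (ι : Type*) [Fintype ι] [DecidableEq ι] : Prop :=
  ∀ (W : Finset (ι × Bool)) (y : ι × Bool → ι), Set.InjOn y (W : Set (ι × Bool)) →
    ∀ c : Equiv.Perm (ι × Bool),
      opE (eTop W y) c = (∑ Z ∈ W.powerset, eMix W Z y c) / 2 ^ W.card

/-- (L2) bottom-row invariance: prescribed bottom places of the cards of `Z` may be forgotten at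
the price of the number of injective relabellings. -/
def L2Stmt (ι : Type*) [Fintype ι] [DecidableEq ι] : Prop :=
  ∀ (u : Equiv.Perm (ι × Bool) → ℝ), BotInv u →
    ∀ (W Z : Finset (ι × Bool)) (y : ι × Bool → ι), Z ⊆ W → Set.InjOn y (Z : Set (ι × Bool)) →
      ((Fintype.card ι).descFactorial Z.card : ℝ) * dot u (eMix W Z y) = dot u (eBot W Z y)

/-- (L3) inclusion–exclusion for "in the bottom row", modulo the lower marginals. -/
def L3Stmt (ι : Type*) [Fintype ι] [DecidableEq ι] : Prop :=
  ∀ (u : Equiv.Perm (ι × Bool) → ℝ) (W Z : Finset (ι × Bool)) (y : ι × Bool → ι),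
    (∀ (W' : Finset (ι × Bool)) (y' : ι × Bool → ι), W'.card < W.card → marg u W' y' = 0) →
    Z ⊆ W →
      dot u (eBot W Z y) = (-1 : ℝ) ^ Z.card * ∑ y' ∈ relab Z y, marg u W y'

/-- (SYM) the symbol identity. -/
def SymStmt (ι : Type*) [Fintype ι] [DecidableEq ι] : Prop :=
  ∀ (u : Equiv.Perm (ι × Bool) → ℝ), BotInv u →
    ∀ (W : Finset (ι × Bool)) (y : ι × Bool → ι),
      (∀ (W' : Finset (ι × Bool)) (y' : ι × Bool → ι), W'.card < W.card → marg u W' y' = 0) →
      Set.InjOn y (W : Set (ι × Bool)) →
        marg (opE u) W y = theta W (fun y' => marg u W y') y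

/-- (Q) Lemma B for the symbol operator, in the total-function form: a `β` which depends only on
`y` restricted to `W` and vanishes unless `y` is injective on `W`. -/
def QStmt (ι : Type*) [Fintype ι] [DecidableEq ι] : Prop :=
  ∀ (W : Finset (ι × Bool)) (β : (ι × Bool → ι) → ℝ), 2 ≤ W.card →
    (∀ y, ¬ Set.InjOn y (W : Set (ι × Bool)) → β y = 0) →
    (∀ y y', (∀ w ∈ W, y w = y' w) → β y = β y') →
      |∑ y, β y * theta W β y| ≤ (1 / 4) * ∑ y, β y ^ 2

end Crest.Agent.Helper82.Shuffle
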