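import Crest.Agent.Helper82.Shuffle.Sym
import Crest.Agent.Helper13.Shuffle.GapStep
import Crest.Agent.Helper97.Shuffle.Rayleigh

/-!
# S0222 (Thorp shuffle) — Lemma A of GAP: final assembly

`lemmaAStmt_of : L0Stmt ι → SymStmt ι → QStmt ι → LemmaAStmt ι` (for nonempty `ι`), through
helper97's "lowest non-vanishing marginal" criterion `rayleigh_le_of_levels'`, applied to
`T = (bottom-row average) ∘ opE` on the class of bottom-invariant functions whose one-card
marginals vanish.
-/

set_option autoImplicit false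

namespace Crest.Agent.Helper82.Shuffle

open Finset Crest.Agent.Helper13.Gap

variable {ι : Type*} [Fintype ι] [DecidableEq ι]

/-- The one-card marginals of `u` vanish (the second hypothesis of `LemmaAStmt`). -/
def OneZero (u : Equiv.Perm (ι × Bool) → ℝ) : Prop :=
  ∀ (y : ι) (a : ι × Bool),
    ∑ c : Equiv.Perm (ι × Bool), (if c (y, false) = a then u c else 0) = 0

/-- The average over the permutations of the bottom row. -/
noncomputable def avgB (f : Equiv.Perm (ι × Bool) → ℝ) : Equiv.Perm (ι × Bool) → ℝ :=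
  opR rhoB (unif (Equiv.Perm ι)) f

theorem avgB_botInv (f : Equiv.Perm (ι × Bool) → ℝ) : BotInv (avgB f) := by
  intro σ c
  exact opR_unif_inv rhoB f σ c

theorem avgB_of_botInv (f : Equiv.Perm (ι × Bool) → ℝ) (hf : BotInv f) : avgB f = f :=
  opR_of_inv rhoB (unif (Equiv.Perm ι)) sum_unif f (fun g c => hf g c)

theorem avgB_selfadj (f g : Equiv.Perm (ι × Bool) → ℝ) : dot (avgB f) g = dot f (avgB g) :=
  opR_unif_selfadj rhoB f g

theorem avgB_add (f g : Equiv.Perm (ι × Bool) → ℝ) : avgB (f + g) = avgB f + avgB g :=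
  opR_add rhoB _ f g

theorem avgB_smul (a : ℝ) (f : Equiv.Perm (ι × Bool) → ℝ) : avgB (a • f) = a • avgB f := by
  funext c
  simp only [avgB, opR, Pi.smul_apply, smul_eq_mul, Finset.mul_sum]
  apply Finset.sum_congr rfl
  intro σ _
  ring

theorem opE_smul (a : ℝ) (f : Equiv.Perm (ι × Bool) → ℝ) : opE (a • f) = a • opE f := by
  funext c
  simp only [opE, Pi.smul_apply, smul_eq_mul, ← Finset.mul_sum, mul_div_assoc]

theorem eTop_botInv (W : Finset (ι × Bool)) (y : ι × Bool → ι) : BotInv (eTop W y) := by
  intro σ c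
  unfold eTop
  have : ∀ w, (c * rowsE 1 σ) (y w, false) = c (y w, false) := by
    intro w
    simp [Equiv.Perm.mul_apply]
  simp only [this]

theorem marg_avgB (g : Equiv.Perm (ι × Bool) → ℝ) (W : Finset (ι × Bool)) (y : ι × Bool → ι) :
    marg (avgB g) W y = marg g W y := by
  unfold marg
  rw [avgB_selfadj, avgB_of_botInv _ (eTop_botInv W y)]

theorem marg_empty (u : Equiv.Perm (ι × Bool) → ℝ) (y : ι × Bool → ι) :
    marg u ∅ y = ∑ c, u c := by
  unfold marg dot eTop
  simp

theorem marg_singleton (u : Equiv.Perm (ι × Bool) → ℝ) (a : ι × Bool) (y : ι × Bool → ι) :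
    marg u {a} y = ∑ c : Equiv.Perm (ι × Bool), (if c (y a, false) = a then u c else 0) := by
  unfold marg dot eTop
  apply Finset.sum_congr rfl
  intro c _
  by_cases h : c (y a, false) = a
  · simp [h]
  · simp [h]

theorem sum_eq_zero_of_oneZero [Nonempty ι] (u : Equiv.Perm (ι × Bool) → ℝ) (hu : OneZero u) :
    ∑ c, u c = 0 := by
  obtain ⟨y0⟩ := ‹Nonempty ι›
  have : ∑ c, u c = ∑ a : ι × Bool, ∑ c : Equiv.Perm (ι × Bool),
      (if c (y0, false) = a then u c else 0) := by
    rw [Finset.sum_comm]
    apply Finset.sum_congr rfl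
    intro c _
    simp
  rw [this]
  exact Finset.sum_eq_zero (fun a _ => hu y0 a)

theorem eTop_eq_zero_of_not_injOn (W : Finset (ι × Bool)) (y : ι × Bool → ι)
    (h : ¬ Set.InjOn y (W : Set (ι × Bool))) (c : Equiv.Perm (ι × Bool)) : eTop W y c = 0 := by
  unfold eTop
  rw [if_neg]
  intro hc
  apply h
  intro w hw w' hw' hyy
  have h1 := hc w hw
  have h2 := hc w' hw'
  rw [hyy] at h1
  exact h1.symm.trans h2

theorem eTop_congr (W : Finset (ι × Bool)) (y y' : ι × Bool → ι) (h : ∀ w ∈ W, y w = y' w) :
    eTop W y = eTop W y' := by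
  funext c
  unfold eTop
  have : (∀ w ∈ W, c (y w, false) = w) ↔ (∀ w ∈ W, c (y' w, false) = w) := by
    constructor
    · intro hc w hw
      rw [← h w hw]
      exact hc w hw
    · intro hc w hw
      rw [h w hw]
      exact hc w hw
  by_cases hc : ∀ w ∈ W, c (y w, false) = w
  · rw [if_pos hc, if_pos (this.1 hc)]
  · rw [if_neg hc, if_neg (fun h' => hc (this.2 h'))]

omit [DecidableEq ι] in
/-- Two arrangements with the same top row differ by a permutation of the bottom row. -/
theorem exists_rows_of_top_eq (c c0 : Equiv.Perm (ι × Bool))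
    (h : ∀ col : ι, c (col, false) = c0 (col, false)) :
    ∃ σ : Equiv.Perm ι, c = c0 * rowsE 1 σ := by
  classical
  have hgt : ∀ col : ι, (c0⁻¹ * c) (col, false) = (col, false) := by
    intro col
    rw [Equiv.Perm.mul_apply, h col]
    simp
  have hgb : ∀ col : ι, ((c0⁻¹ * c) (col, true)).2 = true := by
    intro col
    by_contra hb
    have hb' : ((c0⁻¹ * c) (col, true)).2 = false := by simpa using hb
    have h1 : (c0⁻¹ * c) (col, true) = (c0⁻¹ * c) (((c0⁻¹ * c) (col, true)).1, false) := by
      rw [hgt]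
      exact Prod.ext rfl hb'
    have h2 := (c0⁻¹ * c).injective h1
    have h3 := congrArg Prod.snd h2
    simp at h3
  have hf : ∀ col, (c0⁻¹ * c) (col, true) = (((c0⁻¹ * c) (col, true)).1, true) :=
    fun col => Prod.ext rfl (hgb col)
  have hinj : Function.Injective (fun col : ι => ((c0⁻¹ * c) (col, true)).1) := by
    intro a b hab
    have h1 : (c0⁻¹ * c) (a, true) = (c0⁻¹ * c) (b, true) := by
      rw [hf a, hf b]
      exact Prod.ext hab rfl
    have h2 := (c0⁻¹ * c).injective h1
    exact congrArg Prod.fst h2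
  refine ⟨Equiv.ofBijective _ (Finite.injective_iff_bijective.1 hinj), ?_⟩
  have hgσ : c0⁻¹ * c = rowsE 1 (Equiv.ofBijective _ (Finite.injective_iff_bijective.1 hinj)) := by
    apply Equiv.ext
    rintro ⟨col, b⟩
    cases b
    · rw [hgt]
      simp
    · rw [hf]
      simp
  rw [← hgσ, mul_inv_cancel_left]

/-- A nonzero bottom-invariant function has a non-vanishing marginal. -/
theorem exists_marg_ne_zero (v : Equiv.Perm (ι × Bool) → ℝ) (hv : BotInv v) (hv0 : v ≠ 0) :
    ∃ W : Finset (ι × Bool), (fun y => marg v W y) ≠ 0 := by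
  classical
  obtain ⟨c0, hc0⟩ : ∃ c0, v c0 ≠ 0 := by
    by_contra hcon
    exact hv0 (funext fun c => by
      by_contra hc
      exact hcon ⟨c, hc⟩)
  refine ⟨univ.image (fun col : ι => c0 (col, false)), fun hzero => ?_⟩
  have hm : marg v (univ.image (fun col : ι => c0 (col, false))) (fun w => (c0.symm w).1) = 0 :=
    congrFun hzero (fun w => (c0.symm w).1)
  have key : ∀ c : Equiv.Perm (ι × Bool),
      v c * eTop (univ.image (fun col : ι => c0 (col, false))) (fun w => (c0.symm w).1) c
        = v c0 * eTop (univ.image (fun col : ι => c0 (col, false))) (fun w => (c0.symm w).1) c := by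
    intro c
    unfold eTop
    by_cases hc : ∀ w ∈ univ.image (fun col : ι => c0 (col, false)),
        c ((fun w => (c0.symm w).1) w, false) = w
    · rw [if_pos hc]
      have htop : ∀ col : ι, c (col, false) = c0 (col, false) := by
        intro col
        have := hc (c0 (col, false)) (mem_image_of_mem _ (mem_univ col))
        simpa using this
      obtain ⟨σ, hσ⟩ := exists_rows_of_top_eq c c0 htop
      rw [hσ, hv σ c0]
    · rw [if_neg hc]
      simp
  have h1 : marg v (univ.image (fun col : ι => c0 (col, false))) (fun w => (c0.symm w).1)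
      = v c0 * ∑ c, eTop (univ.image (fun col : ι => c0 (col, false)))
          (fun w => (c0.symm w).1) c := by
    unfold marg dot
    rw [Finset.mul_sum]
    exact Finset.sum_congr rfl (fun c _ => key c)
  have h2 : 0 < ∑ c, eTop (univ.image (fun col : ι => c0 (col, false)))
      (fun w => (c0.symm w).1) c := by
    have hnn : ∀ c ∈ (univ : Finset (Equiv.Perm (ι × Bool))),
        0 ≤ eTop (univ.image (fun col : ι => c0 (col, false))) (fun w => (c0.symm w).1) c := by
      intro c _
      unfold eTop
      split_ifs <;> norm_num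
    have hc0' : eTop (univ.image (fun col : ι => c0 (col, false)))
        (fun w => (c0.symm w).1) c0 = 1 := by
      unfold eTop
      rw [if_pos]
      intro w hw
      obtain ⟨col, _, rfl⟩ := mem_image.1 hw
      simp
    calc (0 : ℝ) < eTop (univ.image (fun col : ι => c0 (col, false)))
          (fun w => (c0.symm w).1) c0 := by rw [hc0']; norm_num
      _ ≤ _ := Finset.single_le_sum hnn (mem_univ c0)
  rw [h1] at hm
  rcases mul_eq_zero.1 hm with h | h
  · exact hc0 h
  · exact h2.ne' h

/-- **Lemma A** from the symbol identity and Lemma B. -/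
theorem lemmaAStmt_of (ι : Type*) [Fintype ι] [DecidableEq ι] [Nonempty ι]
    (h0 : L0Stmt ι) (hs : SymStmt ι) (hq : QStmt ι) : LemmaAStmt ι := by
  classical
  intro u huB huZ
  -- the class and the operator
  have hTadd : ∀ f g : Equiv.Perm (ι × Bool) → ℝ,
      avgB (opE (f + g)) = avgB (opE f) + avgB (opE g) := by
    intro f g
    rw [opE_add, avgB_add]
  have hTsmul : ∀ (a : ℝ) (f : Equiv.Perm (ι × Bool) → ℝ),
      avgB (opE (a • f)) = a • avgB (opE f) := by
    intro a f
    rw [opE_smul, avgB_smul]
  have hP0 : BotInv (0 : Equiv.Perm (ι × Bool) → ℝ) ∧ OneZero (0 : Equiv.Perm (ι × Bool) → ℝ) := by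
    refine ⟨fun σ c => rfl, fun y a => ?_⟩
    simp
  have hPadd : ∀ f g : Equiv.Perm (ι × Bool) → ℝ, BotInv f ∧ OneZero f → BotInv g ∧ OneZero g →
      BotInv (f + g) ∧ OneZero (f + g) := by
    intro f g hf hg
    refine ⟨fun σ c => ?_, fun y a => ?_⟩
    · simp only [Pi.add_apply, hf.1 σ c, hg.1 σ c]
    · have : ∀ c : Equiv.Perm (ι × Bool), (if c (y, false) = a then (f + g) c else 0)
          = (if c (y, false) = a then f c else 0) + (if c (y, false) = a then g c else 0) := by
        intro c
        split_ifs <;> simp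
      rw [Finset.sum_congr rfl (fun c _ => this c), Finset.sum_add_distrib, hf.2 y a, hg.2 y a,
        add_zero]
  have hPsmul : ∀ (r : ℝ) (f : Equiv.Perm (ι × Bool) → ℝ), BotInv f ∧ OneZero f →
      BotInv (r • f) ∧ OneZero (r • f) := by
    intro r f hf
    refine ⟨fun σ c => ?_, fun y a => ?_⟩
    · simp only [Pi.smul_apply, hf.1 σ c]
    · have : ∀ c : Equiv.Perm (ι × Bool), (if c (y, false) = a then (r • f) c else 0)
          = r * (if c (y, false) = a then f c else 0) := by
        intro c
        split_ifs <;> simp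
      rw [Finset.sum_congr rfl (fun c _ => this c), ← Finset.mul_sum, hf.2 y a, mul_zero]
  have hmargZ : ∀ v : Equiv.Perm (ι × Bool) → ℝ, OneZero v → ∀ (a : ι × Bool) (y : ι × Bool → ι),
      marg v {a} y = 0 := by
    intro v hv a y
    rw [marg_singleton]
    exact hv (y a) a
  have hinv : ∀ v : Equiv.Perm (ι × Bool) → ℝ, BotInv v ∧ OneZero v →
      BotInv (avgB (opE v)) ∧ OneZero (avgB (opE v)) := by
    intro v hv
    refine ⟨avgB_botInv _, fun y a => ?_⟩
    have h1 := marg_singleton (avgB (opE v)) a (fun _ => y)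
    rw [← h1, marg_avgB]
    have hlow : ∀ (W' : Finset (ι × Bool)) (y' : ι × Bool → ι),
        W'.card < ({a} : Finset (ι × Bool)).card → marg v W' y' = 0 := by
      intro W' y' hlt
      rw [Finset.card_singleton, Nat.lt_one_iff, Finset.card_eq_zero] at hlt
      rw [hlt, marg_empty]
      exact sum_eq_zero_of_oneZero v hv.2
    have hinj : Set.InjOn (fun _ : ι × Bool => y) (({a} : Finset (ι × Bool)) : Set (ι × Bool)) := by
      intro w hw w' hw' _
      simp only [Finset.coe_singleton, Set.mem_singleton_iff] at hw hw'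
      rw [hw, hw']
    rw [hs v hv.1 {a} (fun _ => y) hlow hinj]
    unfold theta
    simp only [hmargZ v hv.2 a, Finset.sum_const_zero, mul_zero, zero_div]
  have hsymm : ∀ f : Equiv.Perm (ι × Bool) → ℝ, BotInv f ∧ OneZero f →
      ∀ g : Equiv.Perm (ι × Bool) → ℝ, BotInv g ∧ OneZero g →
      ∑ c, avgB (opE f) c * g c = ∑ c, f c * avgB (opE g) c := by
    intro f hf g hg
    have e1 : ∑ c, avgB (opE f) c * g c = dot (opE f) g := by
      have := avgB_selfadj (opE f) g
      rw [avgB_of_botInv g hg.1] at this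
      exact this
    have e2 : ∑ c, f c * avgB (opE g) c = dot f (opE g) := by
      have := avgB_selfadj f (opE g)
      rw [avgB_of_botInv f hf.1] at this
      exact this.symm
    rw [e1, e2]
    exact h0.1 f g
  have hm : ∀ (W : Finset (ι × Bool)) (a : ℝ) (v : Equiv.Perm (ι × Bool) → ℝ),
      (fun y => marg (a • v) W y) = a • (fun y => marg v W y) := by
    intro W a v
    funext y
    simp only [marg, dot, Pi.smul_apply, smul_eq_mul, Finset.mul_sum, mul_assoc]
  have hsep : ∀ v : Equiv.Perm (ι × Bool) → ℝ, BotInv v ∧ OneZero v → v ≠ 0 →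
      ∃ W : Finset (ι × Bool), (fun y => marg v W y) ≠ 0 :=
    fun v hv hv0 => exists_marg_ne_zero v hv.1 hv0
  have hquad : ∀ v : Equiv.Perm (ι × Bool) → ℝ, BotInv v ∧ OneZero v →
      ∀ W : Finset (ι × Bool),
      (∀ W' : Finset (ι × Bool), W'.card < W.card → (fun y => marg v W' y) = 0) →
      (fun y => marg v W y) ≠ 0 →
      ∑ y, marg (avgB (opE v)) W y * marg v W y ≤ (1 / 4) * ∑ y, (marg v W y) ^ 2 := by
    intro v hv W hlow hne
    have hlow' : ∀ (W' : Finset (ι × Bool)) (y' : ι × Bool → ι), W'.card < W.card →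
        marg v W' y' = 0 := fun W' y' h => congrFun (hlow W' h) y'
    have h2 : 2 ≤ W.card := by
      by_contra hcon
      apply hne
      funext y
      have hle : W.card ≤ 1 := by omega
      rcases Nat.lt_or_ge W.card 1 with h | h
      · rw [Nat.lt_one_iff, Finset.card_eq_zero] at h
        rw [h, marg_empty]
        exact sum_eq_zero_of_oneZero v hv.2
      · have h1 : W.card = 1 := le_antisymm hle h
        obtain ⟨a, ha⟩ := Finset.card_eq_one.1 h1
        rw [ha]
        exact hmargZ v hv.2 a y
    have hβ0 : ∀ y, ¬ Set.InjOn y (W : Set (ι × Bool)) → marg v W y = 0 := by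
      intro y hy
      unfold marg dot
      apply Finset.sum_eq_zero
      intro c _
      rw [eTop_eq_zero_of_not_injOn W y hy c, mul_zero]
    have hβc : ∀ y y' : ι × Bool → ι, (∀ w ∈ W, y w = y' w) → marg v W y = marg v W y' := by
      intro y y' h
      unfold marg
      rw [eTop_congr W y y' h]
    have hterm : ∀ y : ι × Bool → ι, marg (avgB (opE v)) W y * marg v W y
        = marg v W y * theta W (fun y' => marg v W y') y := by
      intro y
      by_cases hy : Set.InjOn y (W : Set (ι × Bool))
      · rw [marg_avgB, hs v hv.1 W y hlow' hy, mul_comm]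
      · rw [hβ0 y hy, mul_zero, zero_mul]
    rw [Finset.sum_congr rfl (fun y _ => hterm y)]
    exact le_trans (le_abs_self _) (hq W (fun y => marg v W y) h2 hβ0 hβc)
  have main := Crest.Agent.Helper97.Shuffle.rayleigh_le_of_levels'
    (fun f : Equiv.Perm (ι × Bool) → ℝ => avgB (opE f))
    (fun f : Equiv.Perm (ι × Bool) → ℝ => BotInv f ∧ OneZero f) (1 / 4)
    hTadd hTsmul hP0 hPadd hPsmul hinv hsymm
    (I := Finset (ι × Bool)) (fun W => W.card) (J := fun _ => (ι × Bool → ι))
    (fun W v y => marg v W y) hm hsep hquad u ⟨huB, huZ⟩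
  have hfin : ∑ c, (opE u c) ^ 2 = ∑ c, avgB (opE u) c * u c := by
    have e1 : ∑ c, avgB (opE u) c * u c = dot (opE u) u := by
      have := avgB_selfadj (opE u) u
      rw [avgB_of_botInv u huB] at this
      exact this
    have e2 : dot (opE u) u = dot (opE u) (opE u) := by
      have := h0.1 (opE u) u
      rw [h0.2 u] at this
      exact this
    rw [e1, e2]
    unfold dot
    exact Finset.sum_congr rfl (fun c _ => sq _)
  rw [hfin]
  exact main

end Crest.Agent.Helper82.Shuffle
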