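import Crest.Agent.Helper82.Shuffle.LemmaA
import Crest.Agent.Helper47.Shuffle.SymL1
import Crest.Agent.Helper72.Shuffle.L2

/-!
# S0222 (Thorp shuffle) — Lemma A of GAP, with all leaves of the symbol identity plugged in

`symStmt : SymStmt ι` (leaves L0, L1 of helper47, L2 of helper72, L3 of helper82) and
`lemmaAStmt_of_q : QStmt ι → LemmaAStmt ι` (nonempty `ι`): the only remaining input is Lemma B for
the symbol operator (`QStmt`).
-/

set_option autoImplicit false

namespace Crest.Agent.Helper82.Shuffle

open Crest.Agent.Helper13.Gap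

/-- **The symbol identity.** -/
theorem symStmt (ι : Type*) [Fintype ι] [DecidableEq ι] : SymStmt ι :=
  symStmt_of ι Crest.Agent.Helper47.Shuffle.l0 Crest.Agent.Helper47.Shuffle.l1
    (Crest.Agent.Helper72.ShuffleL2.l2Stmt ι)

/-- **Lemma A** from Lemma B for the symbol operator. -/
theorem lemmaAStmt_of_q (ι : Type*) [Fintype ι] [DecidableEq ι] [Nonempty ι] (hq : QStmt ι) :
    LemmaAStmt ι :=
  lemmaAStmt_of ι Crest.Agent.Helper47.Shuffle.l0 (symStmt ι) hq

end Crest.Agent.Helper82.Shuffle
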