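import Crest.Agent.Helper82.Shuffle.SymL3

/-!
# S0222 (Thorp shuffle) — Lemma A of GAP: the symbol identity (SYM) from the leaves L0–L3
-/

set_option autoImplicit false

namespace Crest.Agent.Helper82.Shuffle

open Finset Crest.Agent.Helper13.Gap

/-- **The symbol identity**, from the leaves (L0), (L1), (L2), (L3). -/
theorem symStmt_of (ι : Type*) [Fintype ι] [DecidableEq ι]
    (h0 : L0Stmt ι) (h1 : L1Stmt ι) (h2 : L2Stmt ι) : SymStmt ι := by
  classical
  intro u hu W y hlow hinj
  have h3 := l3 ι
  unfold theta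
  have e1 : marg (opE u) W y = dot u (opE (eTop W y)) := by
    unfold marg
    exact h0.1 u (eTop W y)
  have e2 : dot u (opE (eTop W y)) = (∑ Z ∈ W.powerset, dot u (eMix W Z y)) / 2 ^ W.card := by
    unfold dot
    rw [Finset.sum_comm, Finset.sum_div]
    apply Finset.sum_congr rfl
    intro c _
    rw [h1 W y hinj c, ← mul_div_assoc, Finset.mul_sum]
  rw [e1, e2]
  congr 1
  apply Finset.sum_congr rfl
  intro Z hZ
  rw [mem_powerset] at hZ
  have hinjZ : Set.InjOn y (Z : Set (ι × Bool)) := hinj.mono (by exact_mod_cast hZ)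
  have hcard : Z.card ≤ Fintype.card ι := by
    have : (Z.image y).card = Z.card := Finset.card_image_of_injOn hinjZ
    rw [← this]
    exact Finset.card_le_univ _
  have hne : ((Fintype.card ι).descFactorial Z.card : ℝ) ≠ 0 := by
    have : 0 < (Fintype.card ι).descFactorial Z.card := Nat.descFactorial_pos.mpr hcard
    exact_mod_cast this.ne'
  have hL2 := h2 u hu W Z y hZ hinjZ
  have hL3 := h3 u W Z y hlow hZ
  rw [hL3] at hL2
  rw [div_mul_eq_mul_div, eq_div_iff hne, mul_comm]
  exact hL2

end Crest.Agent.Helper82.Shuffle
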