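import Crest.Agent.Helper82.Shuffle.SymDefs

/-!
# S0222 (Thorp shuffle) — Lemma A of GAP: leaf (L3) of the symbol identity

Inclusion–exclusion for "card `w` sits in the bottom row" = `1 - ∑ col, 1[w at (col, top)]`.
Also: the product/sum exchange over the relabellings `relab R y` (`prod_sum_relab`), reusable.
-/

set_option autoImplicit false

namespace Crest.Agent.Helper82.Shuffle

open Finset Crest.Agent.Helper13.Gap

variable {ι : Type*} [Fintype ι] [DecidableEq ι]

/-- Indicator of "card `w` sits at the top place of column `col`". -/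
def aTop (col : ι) (w : ι × Bool) (c : Equiv.Perm (ι × Bool)) : ℝ :=
  if c (col, false) = w then 1 else 0

/-- Indicator of "card `w` sits in the bottom row". -/
def bBot (w : ι × Bool) (c : Equiv.Perm (ι × Bool)) : ℝ :=
  if (c.symm w).2 = true then 1 else 0

theorem eTop_eq_prod (W : Finset (ι × Bool)) (y : ι × Bool → ι) (c : Equiv.Perm (ι × Bool)) :
    eTop W y c = ∏ w ∈ W, aTop (y w) w c := by
  unfold eTop aTop
  rw [Finset.prod_boole]
  by_cases h : ∀ w ∈ W, c (y w, false) = w
  · rw [if_pos h, if_pos h]
  · rw [if_neg h, if_neg h]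

theorem eBot_eq_prod (W Z : Finset (ι × Bool)) (y : ι × Bool → ι) (c : Equiv.Perm (ι × Bool)) :
    eBot W Z y c = (∏ w ∈ W \ Z, aTop (y w) w c) * ∏ w ∈ Z, bBot w c := by
  unfold eBot aTop bBot
  rw [Finset.prod_boole, Finset.prod_boole]
  by_cases h1 : ∀ w ∈ W \ Z, c (y w, false) = w
  · by_cases h2 : ∀ w ∈ Z, (c.symm w).2 = true
    · rw [if_pos ⟨h1, h2⟩, if_pos h1, if_pos h2, mul_one]
    · rw [if_neg (fun h => h2 h.2), if_neg h2, mul_zero]
  · rw [if_neg (fun h => h1 h.1), if_neg h1, zero_mul]

theorem sum_aTop (w : ι × Bool) (c : Equiv.Perm (ι × Bool)) :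
    ∑ col, aTop col w c = if (c.symm w).2 = true then 0 else 1 := by
  unfold aTop
  have key : ∀ col : ι, (c (col, false) = w) ↔ (col = (c.symm w).1 ∧ (c.symm w).2 = false) := by
    intro col
    constructor
    · intro h
      have : c.symm w = (col, false) := by rw [← h]; simp
      rw [this]; simp
    · rintro ⟨h1, h2⟩
      have : c.symm w = (col, false) := Prod.ext h1.symm h2
      rw [← this]; simp
  by_cases hb : (c.symm w).2 = true
  · rw [if_pos hb]
    apply Finset.sum_eq_zero
    intro col _
    rw [if_neg]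
    intro h
    have := ((key col).1 h).2
    rw [hb] at this
    exact Bool.noConfusion this
  · rw [if_neg hb]
    have hb' : (c.symm w).2 = false := by simpa using hb
    have : ∀ col : ι, (if c (col, false) = w then (1 : ℝ) else 0)
        = if col = (c.symm w).1 then 1 else 0 := by
      intro col
      by_cases h : col = (c.symm w).1
      · rw [if_pos h, if_pos ((key col).2 ⟨h, hb'⟩)]
      · rw [if_neg h, if_neg (fun h' => h ((key col).1 h').1)]
    rw [Finset.sum_congr rfl (fun col _ => this col)]
    simp

theorem bBot_eq (w : ι × Bool) (c : Equiv.Perm (ι × Bool)) :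
    bBot w c = 1 - ∑ col, aTop col w c := by
  rw [sum_aTop]
  unfold bBot
  by_cases hb : (c.symm w).2 = true <;> simp [hb]

/-- Exchange of a product over `R` of sums over the columns with the sum over the relabellings
of `y` on `R`. -/
theorem prod_sum_relab (R : Finset (ι × Bool)) (y : ι × Bool → ι) (F : ι × Bool → ι → ℝ) :
    ∏ w ∈ R, ∑ col, F w col = ∑ y' ∈ relab R y, ∏ w ∈ R, F w (y' w) := by
  classical
  have h := Finset.prod_univ_sum
    (fun w : ι × Bool => if w ∈ R then (univ : Finset ι) else {y w})
    (fun (w : ι × Bool) (col : ι) => if w ∈ R then F w col else (1 : ℝ))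
  have hL : ∏ w : ι × Bool, ∑ col ∈ (if w ∈ R then (univ : Finset ι) else {y w}),
      (if w ∈ R then F w col else (1 : ℝ)) = ∏ w ∈ R, ∑ col, F w col := by
    rw [← Fintype.prod_ite_mem R (fun w => ∑ col, F w col)]
    apply Finset.prod_congr rfl
    intro w _
    by_cases hw : w ∈ R
    · simp [hw]
    · simp [hw]
  have hS : Fintype.piFinset (fun w : ι × Bool => if w ∈ R then (univ : Finset ι) else {y w})
      = relab R y := by
    ext x
    simp only [Fintype.mem_piFinset, relab, mem_filter, mem_univ, true_and]
    constructor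
    · intro hx w hw
      have := hx w
      rw [if_neg hw] at this
      simpa using this
    · intro hx w
      by_cases hw : w ∈ R
      · simp [hw]
      · simp [hw, hx w hw]
  rw [hL, hS] at h
  rw [h]
  apply Finset.sum_congr rfl
  intro x _
  exact Fintype.prod_ite_mem R (fun w => F w (x w))

/-- Pointwise inclusion–exclusion. -/
theorem eBot_expand (W Z : Finset (ι × Bool)) (y : ι × Bool → ι) (c : Equiv.Perm (ι × Bool)) :
    eBot W Z y c = ∑ R ∈ Z.powerset, (-1 : ℝ) ^ R.card *
      ∑ y' ∈ relab R y, eTop ((W \ Z) ∪ R) y' c := by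
  classical
  rw [eBot_eq_prod]
  have h1 : ∏ w ∈ Z, bBot w c = ∑ R ∈ Z.powerset, (-1 : ℝ) ^ R.card *
      ∑ y' ∈ relab R y, ∏ w ∈ R, aTop (y' w) w c := by
    have : ∀ w ∈ Z, bBot w c = 1 + -∑ col, aTop col w c := by
      intro w _; rw [bBot_eq]; ring
    rw [Finset.prod_congr rfl this, Finset.prod_one_add]
    apply Finset.sum_congr rfl
    intro R _
    rw [Finset.prod_neg, ← prod_sum_relab R y (fun w col => aTop col w c)]
  rw [h1, Finset.mul_sum]
  apply Finset.sum_congr rfl
  intro R hR
  rw [mem_powerset] at hR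
  rw [mul_left_comm, Finset.mul_sum]
  congr 1
  apply Finset.sum_congr rfl
  intro y' hy'
  rw [eTop_eq_prod]
  have hdisj : Disjoint (W \ Z) R := by
    rw [Finset.disjoint_left]
    intro w hw hwR
    exact (mem_sdiff.1 hw).2 (hR hwR)
  rw [Finset.prod_union hdisj]
  congr 1
  apply Finset.prod_congr rfl
  intro w hw
  have hy : y' w = y w := by
    simp only [relab, mem_filter, mem_univ, true_and] at hy'
    exact hy' w (fun hwR => (mem_sdiff.1 hw).2 (hR hwR))
  rw [hy]

/-- **Leaf (L3).** -/
theorem l3 (ι : Type*) [Fintype ι] [DecidableEq ι] : L3Stmt ι := by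
  classical
  intro u W Z y hlow hZW
  have hexp : dot u (eBot W Z y) = ∑ R ∈ Z.powerset, (-1 : ℝ) ^ R.card *
      ∑ y' ∈ relab R y, marg u ((W \ Z) ∪ R) y' := by
    unfold marg dot
    have : ∀ c : Equiv.Perm (ι × Bool), u c * eBot W Z y c
        = ∑ R ∈ Z.powerset, (-1 : ℝ) ^ R.card *
            ∑ y' ∈ relab R y, u c * eTop ((W \ Z) ∪ R) y' c := by
      intro c
      rw [eBot_expand, Finset.mul_sum]
      apply Finset.sum_congr rfl
      intro R _
      rw [mul_left_comm, Finset.mul_sum]
    rw [Finset.sum_congr rfl (fun c _ => this c), Finset.sum_comm]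
    apply Finset.sum_congr rfl
    intro R _
    rw [← Finset.mul_sum, Finset.sum_comm]
  rw [hexp]
  rw [Finset.sum_eq_single Z]
  · have : (W \ Z) ∪ Z = W := by
      rw [Finset.sdiff_union_of_subset hZW]
    rw [this]
  · intro R hR hne
    rw [mem_powerset] at hR
    have hlt : ((W \ Z) ∪ R).card < W.card := by
      have hss : (W \ Z) ∪ R ⊂ W := by
        refine ⟨?_, ?_⟩
        · intro w hw
          rcases mem_union.1 hw with h | h
          · exact (mem_sdiff.1 h).1
          · exact hZW (hR h)
        · intro hsub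
          apply hne
          apply Finset.Subset.antisymm hR
          intro z hz
          have := hsub (hZW hz)
          rcases mem_union.1 this with h | h
          · exact absurd hz (mem_sdiff.1 h).2
          · exact h
      exact Finset.card_lt_card hss
    rw [Finset.sum_eq_zero (fun y' _ => hlow _ y' hlt), mul_zero]
  · intro h
    exact absurd (mem_powerset.2 (Finset.Subset.refl Z)) h

end Crest.Agent.Helper82.Shuffle
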